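import Vale.Agent.Lib.P038.Basic

namespace Vale.Agent.Results.P038.BookFree

/-- Seymour's second neighbourhood conjecture holds for every finite oriented graph in which
no arc `u -> w` has three common out-neighbours of `u` and `w`. -/
theorem result {V : Type*} [Fintype V] [DecidableEq V] [Nonempty V]
    (r : V → V → Prop) [DecidableRel r]
    (hasym : ∀ u w, r u w → ¬ r w u)
    (h2 : ∀ u w, r u w → (Finset.univ.filter (fun x => r u x ∧ r w x)).card ≤ 2) :
    ∃ v : V, (Finset.univ.filter (fun u => r v u)).card ≤
      (Finset.univ.filter (fun w => w ≠ v ∧ ¬ r v w ∧ ∃ u, r v u ∧ r u w)).card :=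
  Vale.Agent.Lib.P038.exists_seymour_of_common_le_two r hasym h2

end Vale.Agent.Results.P038.BookFree
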