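import Vale.Agent.Lib.P038.Basic

namespace Vale.Agent.Results.P038.MinDegThreeT

/-- If every arc `u -> w` of a finite oriented graph has at most `t` common out-neighbours of
`u` and `w`, and the minimum out-degree is at least `3 * t`, then every vertex of minimum
out-degree has a second out-neighbourhood at least as large as its out-neighbourhood. -/
theorem result {V : Type*} [Fintype V] [DecidableEq V]
    (r : V → V → Prop) [DecidableRel r]
    (hasym : ∀ u w, r u w → ¬ r w u) (t : ℕ)
    (ht : ∀ u w, r u w → (Finset.univ.filter (fun x => r u x ∧ r w x)).card ≤ t)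
    (v : V)
    (hmin : ∀ x : V, (Finset.univ.filter (fun u => r v u)).card ≤
      (Finset.univ.filter (fun u => r x u)).card)
    (hdeg : 3 * t ≤ (Finset.univ.filter (fun u => r v u)).card) :
    (Finset.univ.filter (fun u => r v u)).card ≤
      (Finset.univ.filter (fun w => w ≠ v ∧ ¬ r v w ∧ ∃ u, r v u ∧ r u w)).card :=
  Vale.Agent.Lib.P038.seymour_of_three_mul_le r hasym t ht v hmin hdeg

end Vale.Agent.Results.P038.MinDegThreeT
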