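import Vale.Agent.Lib.P038.Triangles

namespace Vale.Agent.Results.P038.MinDegTwoT

/-- If every edge of the underlying graph of a finite oriented graph lies in at most `t`
triangles and the minimum out-degree is at least `2 * t - 1`, then every vertex of minimum
out-degree has a second out-neighbourhood at least as large as its out-neighbourhood. -/
theorem result {V : Type*} [Fintype V] [DecidableEq V]
    (r : V → V → Prop) [DecidableRel r]
    (hasym : ∀ u w, r u w → ¬ r w u) (t : ℕ)
    (ht : ∀ u w, r u w →
      (Finset.univ.filter (fun x => (r u x ∨ r x u) ∧ (r w x ∨ r x w))).card ≤ t)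
    (v : V)
    (hmin : ∀ x : V, (Finset.univ.filter (fun u => r v u)).card ≤
      (Finset.univ.filter (fun u => r x u)).card)
    (hdeg : 2 * t ≤ (Finset.univ.filter (fun u => r v u)).card + 1) :
    (Finset.univ.filter (fun u => r v u)).card ≤
      (Finset.univ.filter (fun w => w ≠ v ∧ ¬ r v w ∧ ∃ u, r v u ∧ r u w)).card :=
  Vale.Agent.Lib.P038.seymour_of_two_mul_le r hasym t ht v hmin hdeg

end Vale.Agent.Results.P038.MinDegTwoT
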