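import Vale.Agent.Lib.P038.Triangles

namespace Vale.Agent.Results.P038.TriangleThree

/-- Seymour's second neighbourhood conjecture holds for every orientation of a finite graph in
which every edge lies in at most three triangles (the two ends of every arc have at most three
common neighbours). -/
theorem result {V : Type*} [Fintype V] [DecidableEq V] [Nonempty V]
    (r : V → V → Prop) [DecidableRel r]
    (hasym : ∀ u w, r u w → ¬ r w u)
    (h3 : ∀ u w, r u w →
      (Finset.univ.filter (fun x => (r u x ∨ r x u) ∧ (r w x ∨ r x w))).card ≤ 3) :
    ∃ v : V, (Finset.univ.filter (fun u => r v u)).card ≤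
      (Finset.univ.filter (fun w => w ≠ v ∧ ¬ r v w ∧ ∃ u, r v u ∧ r u w)).card :=
  Vale.Agent.Lib.P038.exists_seymour_of_triangles_le_three r hasym h3

end Vale.Agent.Results.P038.TriangleThree
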